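import Mathlib

open MeasureTheory ProbabilityTheory Real Set
open scoped RealInnerProductSpace

namespace Vale.Agent.Lib.P226

lemma exp_neg_le_T4 (y : ℝ) (hy : 0 ≤ y) :
    Real.exp (-y) ≤ 1 - y + y^2/2 - y^3/6 + y^4/24 := by
  have hd : ∀ x : ℝ, HasDerivAt (fun y : ℝ => Real.exp y * (1 - y + y^2/2 - y^3/6 + y^4/24))
      (Real.exp x * (x^4/24)) x := by
    intro x
    have h1 : HasDerivAt (fun y : ℝ => (1 - y + y^2/2 - y^3/6 + y^4/24))
        (-1 + x - x^2/2 + x^3/6) x := by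
      have h := ((((hasDerivAt_const x (1:ℝ)).fun_sub (hasDerivAt_id' x)).fun_add
        ((hasDerivAt_pow 2 x).div_const 2)).fun_sub ((hasDerivAt_pow 3 x).div_const 6)).fun_add
        ((hasDerivAt_pow 4 x).div_const 24)
      refine h.congr_deriv ?_
      norm_num
      ring
    refine ((Real.hasDerivAt_exp x).fun_mul h1).congr_deriv ?_
    ring
  have hmono : MonotoneOn (fun y : ℝ => Real.exp y * (1 - y + y^2/2 - y^3/6 + y^4/24))
      (Set.Ici 0) := by
    apply monotoneOn_of_deriv_nonneg (convex_Ici 0)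
    · exact fun x _ => (hd x).continuousAt.continuousWithinAt
    · exact fun x _ => (hd x).differentiableAt.differentiableWithinAt
    · intro x _
      rw [(hd x).deriv]; positivity
  have h := hmono (Set.mem_Ici.2 le_rfl) (Set.mem_Ici.2 hy) hy
  simp only [Real.exp_zero] at h
  rw [Real.exp_neg, inv_le_iff_one_le_mul₀ (Real.exp_pos y)]
  norm_num at h
  linarith

/-- `∫_t^∞ s e^{-s²/2} ds = e^{-t²/2}` -/
lemma integral_Ioi_mul_exp (t : ℝ) :
    ∫ s in Ioi t, s * Real.exp (-(1/2) * s^2) = Real.exp (-(1/2) * t^2) := by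
  have hd : ∀ x ∈ Ioi t, HasDerivAt (fun s : ℝ => - Real.exp (-(1/2) * s^2))
      (x * Real.exp (-(1/2) * x^2)) x := by
    intro x _
    have h1 : HasDerivAt (fun s : ℝ => -(1/2) * s^2) (-(1/2) * (2 * x)) x := by
      have := (hasDerivAt_pow 2 x).const_mul (-(1/2) : ℝ)
      refine this.congr_deriv ?_
      norm_num
    refine (h1.exp.fun_neg).congr_deriv ?_
    ring
  have hint : IntegrableOn (fun s : ℝ => s * Real.exp (-(1/2) * s^2)) (Ioi t) :=
    (integrable_mul_exp_neg_mul_sq (by norm_num : (0:ℝ) < 1/2)).integrableOn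
  have htend : Filter.Tendsto (fun s : ℝ => - Real.exp (-(1/2) * s^2)) Filter.atTop (nhds 0) := by
    have h2 : Filter.Tendsto (fun s : ℝ => (1/2) * s^2) Filter.atTop Filter.atTop :=
      Filter.Tendsto.const_mul_atTop (by norm_num) (Filter.tendsto_pow_atTop (by norm_num))
    have h3 := (Real.tendsto_exp_neg_atTop_nhds_zero.comp h2).neg
    simp only [neg_zero] at h3
    refine h3.congr ?_
    intro s
    simp [Function.comp]
  have := integral_Ioi_of_hasDerivAt_of_tendsto (a := t)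
    (f := fun s : ℝ => - Real.exp (-(1/2) * s^2)) (by fun_prop) hd hint htend
  rw [this]; ring

/-- `∫_t^∞ e^{-s²/2} ds = √(2π)/2 - ∫_0^t e^{-s²/2} ds` -/
lemma integral_Ioi_exp (t : ℝ) (ht : 0 ≤ t) :
    ∫ s in Ioi t, Real.exp (-(1/2) * s^2)
      = √(2 * π) / 2 - ∫ s in (0:ℝ)..t, Real.exp (-(1/2) * s^2) := by
  have h := intervalIntegral.integral_Ioi_sub_Ioi (a := 0) (b := t) (μ := volume)
    (f := fun s : ℝ => Real.exp (-(1/2) * s^2))
    (integrable_exp_neg_mul_sq (by norm_num : (0:ℝ) < 1/2)).integrableOn ht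
  have h0 := integral_gaussian_Ioi (1/2)
  have : π / (1/2) = 2 * π := by ring
  rw [this] at h0
  rw [h0] at h
  linarith

lemma intervalIntegral_exp_le (t : ℝ) (ht : 0 ≤ t) :
    ∫ s in (0:ℝ)..t, Real.exp (-(1/2) * s^2) ≤ t - t^3/6 + t^5/40 - t^7/336 + t^9/3456 := by
  have h1 : ∫ s in (0:ℝ)..t, Real.exp (-(1/2) * s^2)
      ≤ ∫ s in (0:ℝ)..t, (1 - s^2/2 + s^4/8 - s^6/48 + s^8/384) := by
    apply intervalIntegral.integral_mono_on ht
    · exact Continuous.intervalIntegrable (by fun_prop) _ _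
    · exact Continuous.intervalIntegrable (by fun_prop) _ _
    · intro s _
      have := exp_neg_le_T4 (s^2/2) (by positivity)
      have e : -(1/2) * s^2 = -(s^2/2) := by ring
      rw [e]
      refine this.trans (le_of_eq ?_)
      ring
  refine h1.trans (le_of_eq ?_)
  have hd : ∀ x ∈ Set.uIcc 0 t, HasDerivAt (fun s : ℝ => s - s^3/6 + s^5/40 - s^7/336 + s^9/3456)
      (1 - x^2/2 + x^4/8 - x^6/48 + x^8/384) x := by
    intro x _
    have h := ((((hasDerivAt_id' x).fun_sub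
        ((hasDerivAt_pow 3 x).div_const 6)).fun_add ((hasDerivAt_pow 5 x).div_const 40)).fun_sub
        ((hasDerivAt_pow 7 x).div_const 336)).fun_add ((hasDerivAt_pow 9 x).div_const 3456)
    refine h.congr_deriv ?_
    norm_num
    ring
  rw [intervalIntegral.integral_eq_sub_of_hasDerivAt hd
    (Continuous.intervalIntegrable (by fun_prop) _ _)]
  norm_num

lemma hinge_eq (t : ℝ) :
    ∫ s, max (s - t) 0 ∂(gaussianReal 0 1)
      = (√(2 * π))⁻¹ * (Real.exp (-(1/2) * t^2) - t * ∫ s in Ioi t, Real.exp (-(1/2) * s^2)) := by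
  rw [integral_gaussianReal_eq_integral_smul (by norm_num)]
  have h1 : ∀ s : ℝ, gaussianPDFReal 0 1 s • max (s - t) 0
      = (√(2 * π))⁻¹ * ((Ioi t).indicator (fun s => s * Real.exp (-(1/2) * s^2)
          - t * Real.exp (-(1/2) * s^2)) s) := by
    intro s
    rw [gaussianPDFReal_def]
    simp only [smul_eq_mul, NNReal.coe_one, mul_one, sub_zero]
    have e : -s^2/2 = -(1/2) * s^2 := by ring
    rw [e]
    by_cases hs : s ∈ Ioi t
    · rw [indicator_of_mem hs, max_eq_left (by simpa using (le_of_lt hs))]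
      ring
    · rw [indicator_of_notMem hs, max_eq_right (by simpa using hs)]
      ring
  simp_rw [h1]
  rw [integral_const_mul, integral_indicator measurableSet_Ioi, integral_sub, integral_const_mul,
    integral_Ioi_mul_exp]
  · exact (integrable_mul_exp_neg_mul_sq (by norm_num : (0:ℝ) < 1/2)).integrableOn
  · exact ((integrable_exp_neg_mul_sq (by norm_num : (0:ℝ) < 1/2)).const_mul t).integrableOn

lemma hinge_le_exp (t : ℝ) (ht : 0 ≤ t) :
    ∫ s, max (s - t) 0 ∂(gaussianReal 0 1) ≤ (√(2 * π))⁻¹ * Real.exp (-(1/2) * t^2) := by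
  rw [hinge_eq]
  apply mul_le_mul_of_nonneg_left _ (by positivity)
  have : 0 ≤ ∫ s in Ioi t, Real.exp (-(1/2) * s^2) :=
    integral_nonneg (fun s => (Real.exp_pos _).le)
  nlinarith

lemma hinge_le_poly (t : ℝ) (ht : 0 ≤ t) :
    ∫ s, max (s - t) 0 ∂(gaussianReal 0 1) ≤ (√(2 * π))⁻¹ *
      (1 + t^2/2 - t^4/24 + t^6/240 - t^8/2688 + t^10/3456) - t / 2 := by
  rw [hinge_eq, integral_Ioi_exp t ht]
  have hpos : 0 < √(2 * π) := by positivity
  have h1 := intervalIntegral_exp_le t ht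
  have h2 := exp_neg_le_T4 (t^2/2) (by positivity)
  have e : -(1/2) * t^2 = -(t^2/2) := by ring
  rw [e]
  have h3 : Real.exp (-(t^2/2)) - t * (√(2 * π) / 2 - ∫ s in (0:ℝ)..t, Real.exp (-(t^2/2) * 0 + -(1/2) * s^2))
      ≤ (1 + t^2/2 - t^4/24 + t^6/240 - t^8/2688 + t^10/3456) - t * (√(2 * π) / 2) := by
    simp only [mul_zero, zero_add]
    nlinarith
  simp only [mul_zero, zero_add] at h3
  calc (√(2 * π))⁻¹ * (Real.exp (-(t^2/2)) - t * (√(2 * π) / 2 - ∫ s in (0:ℝ)..t, Real.exp (-(1/2) * s^2)))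
      ≤ (√(2 * π))⁻¹ * ((1 + t^2/2 - t^4/24 + t^6/240 - t^8/2688 + t^10/3456) - t * (√(2 * π) / 2)) :=
        mul_le_mul_of_nonneg_left h3 (by positivity)
    _ = _ := by
        field_simp

variable {E : Type*} [NormedAddCommGroup E] [InnerProductSpace ℝ E] [FiniteDimensional ℝ E]
  [MeasurableSpace E] [BorelSpace E]

lemma map_inner_stdGaussian (u : E) (hu : ‖u‖ = 1) :
    (stdGaussian E).map (fun x => ⟪u, x⟫) = gaussianReal 0 1 := by
  have h := IsGaussian.map_eq_gaussianReal (μ := stdGaussian E) (innerSL ℝ u)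
  rw [integral_strongDual_stdGaussian, variance_dual_stdGaussian, innerSL_apply_norm, hu] at h
  simpa using h

lemma cell_bound (A : Set E) (t : ℝ) (ht : 0 ≤ t) :
    ‖∫ x in A, x ∂(stdGaussian E)‖
      ≤ t * (stdGaussian E).real A + ∫ s, max (s - t) 0 ∂(gaussianReal 0 1) := by
  set γ := stdGaussian E with hγ
  set z := ∫ x in A, x ∂γ with hz
  have hψ : 0 ≤ ∫ s, max (s - t) 0 ∂(gaussianReal 0 1) :=
    integral_nonneg (fun s => le_max_right _ _)
  by_cases hz0 : z = 0
  · rw [hz0, norm_zero]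
    have : 0 ≤ γ.real A := measureReal_nonneg
    positivity
  have hzn : 0 < ‖z‖ := norm_pos_iff.2 hz0
  set u : E := (‖z‖)⁻¹ • z with hu
  have hun : ‖u‖ = 1 := by
    rw [hu, norm_smul, norm_inv, norm_norm, inv_mul_cancel₀ hzn.ne']
  have hid : Integrable (fun x : E => x) γ := IsGaussian.integrable_id
  have hinner : Integrable (fun x : E => ⟪u, x⟫) γ := hid.const_inner u
  have h1 : ‖z‖ = ∫ x in A, ⟪u, x⟫ ∂γ := by
    rw [integral_inner hid.integrableOn u, ← hz, hu, real_inner_smul_left, real_inner_self_eq_norm_sq]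
    field_simp
  have hmax : Integrable (fun x : E => max (⟪u, x⟫ - t) 0) γ := by
    have : Integrable (fun x : E => ⟪u, x⟫ - t) γ := hinner.sub (integrable_const t)
    exact this.pos_part
  have h2 : ∫ x in A, ⟪u, x⟫ ∂γ = (∫ x in A, (⟪u, x⟫ - t) ∂γ) + t * γ.real A := by
    rw [integral_sub hinner.integrableOn (integrable_const t).integrableOn]
    simp [mul_comm]
  have h3 : ∫ x in A, (⟪u, x⟫ - t) ∂γ ≤ ∫ x in A, max (⟪u, x⟫ - t) 0 ∂γ := by
    apply integral_mono
    · exact (hinner.sub (integrable_const t)).integrableOn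
    · exact hmax.integrableOn
    · intro x; exact le_max_left _ _
  have h4 : ∫ x in A, max (⟪u, x⟫ - t) 0 ∂γ ≤ ∫ x, max (⟪u, x⟫ - t) 0 ∂γ :=
    setIntegral_le_integral hmax (Filter.Eventually.of_forall (fun x => le_max_right _ _))
  have h5 : ∫ x, max (⟪u, x⟫ - t) 0 ∂γ = ∫ s, max (s - t) 0 ∂(gaussianReal 0 1) := by
    rw [← map_inner_stdGaussian u hun, integral_map]
    · exact Measurable.aemeasurable (by fun_prop)
    · exact Measurable.aestronglyMeasurable (by fun_prop)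
  rw [h1, h2]
  linarith

lemma sqrt_two_pi_lower : (2.5066 : ℝ) ≤ √(2 * π) := by
  apply Real.le_sqrt_of_sq_le
  have := Real.pi_gt_d6
  norm_num
  linarith

lemma inv_sqrt_sq : ((√(2 * π))⁻¹)^2 = 1 / (2 * π) := by
  rw [inv_pow, Real.sq_sqrt (by positivity)]
  simp

lemma cell_sq_le_of_poly (A : Set E) (t : ℝ) (ht : 0 ≤ t) (C : ℝ)
    (hμ : (stdGaussian E).real A ≤ 1/2)
    (h : ((1 + t^2/2 - t^4/24 + t^6/240 - t^8/2688 + t^10/3456)
      - t * 2.5066 * (1/2 - (stdGaussian E).real A))^2 ≤ C * (stdGaussian E).real A) :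
    ‖∫ x in A, x ∂(stdGaussian E)‖^2 ≤ C / (2 * π) * (stdGaussian E).real A := by
  have hb := cell_bound A t ht
  have hp := hinge_le_poly t ht
  set μ := (stdGaussian E).real A with hμdef
  set Q := (1 + t^2/2 - t^4/24 + t^6/240 - t^8/2688 + t^10/3456) with hQ
  set z := ‖∫ x in A, x ∂(stdGaussian E)‖ with hz
  have hz0 : 0 ≤ z := norm_nonneg _
  have hτ := sqrt_two_pi_lower
  set τ := √(2 * π) with hτdef
  have hτpos : 0 < τ := by positivity
  have h1 : z ≤ t * μ + (τ⁻¹ * Q - t / 2) := by linarith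
  have h2 : t * μ + (τ⁻¹ * Q - t / 2) = τ⁻¹ * (Q - t * τ * (1/2 - μ)) := by
    field_simp
    ring
  rw [h2] at h1
  have hY0 : 0 ≤ Q - t * τ * (1/2 - μ) := by
    by_contra hneg
    rw [not_le] at hneg
    have : τ⁻¹ * (Q - t * τ * (1/2 - μ)) < 0 := mul_neg_of_pos_of_neg (by positivity) hneg
    linarith
  have hYY : Q - t * τ * (1/2 - μ) ≤ Q - t * 2.5066 * (1/2 - μ) := by
    have : 0 ≤ t * (1/2 - μ) := mul_nonneg ht (by linarith)
    nlinarith
  have h3 : (Q - t * τ * (1/2 - μ))^2 ≤ C * μ :=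
    (pow_le_pow_left₀ hY0 hYY 2).trans h
  calc z^2 ≤ (τ⁻¹ * (Q - t * τ * (1/2 - μ)))^2 := pow_le_pow_left₀ hz0 h1 2
    _ = (τ⁻¹)^2 * (Q - t * τ * (1/2 - μ))^2 := by ring
    _ ≤ (τ⁻¹)^2 * (C * μ) := mul_le_mul_of_nonneg_left h3 (by positivity)
    _ = C / (2 * π) * μ := by rw [hτdef, inv_sqrt_sq]; ring

lemma cell_sq_le_tail (A : Set E) (hμ : (stdGaussian E).real A ≤ Real.exp (-5)) :
    ‖∫ x in A, x ∂(stdGaussian E)‖^2 ≤ (9/4) / (2 * π) * (stdGaussian E).real A := by
  set μ := (stdGaussian E).real A with hμdef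
  set z := ‖∫ x in A, x ∂(stdGaussian E)‖ with hz
  have hz0 : 0 ≤ z := norm_nonneg _
  have hμ0 : 0 ≤ μ := measureReal_nonneg
  rcases hμ0.eq_or_lt with h0 | hpos
  · -- null set
    have hnull : (stdGaussian E) A = 0 := by
      have := h0.symm
      rw [hμdef, measureReal_def, ENNReal.toReal_eq_zero_iff] at this
      rcases this with h | h
      · exact h
      · exact absurd h (measure_ne_top _ _)
    have : ∫ x in A, x ∂(stdGaussian E) = 0 := by
      rw [Measure.restrict_eq_zero.2 hnull]; simp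
    rw [hz, this, ← h0]; simp
  set L := - Real.log μ with hL
  have hL5 : 5 ≤ L := by
    have := Real.log_le_log hpos hμ
    rw [Real.log_exp] at this
    linarith
  set t := √(2 * L) with ht
  have ht0 : 0 ≤ t := Real.sqrt_nonneg _
  have htsq : t^2 = 2 * L := Real.sq_sqrt (by linarith)
  have hexp : Real.exp (-(1/2) * t^2) = μ := by
    rw [htsq, hL]
    have : -(1/2) * (2 * -Real.log μ) = Real.log μ := by ring
    rw [this, Real.exp_log hpos]
  have hτ := sqrt_two_pi_lower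
  set τ := √(2 * π) with hτdef
  have hτpos : 0 < τ := by positivity
  have h1 : z ≤ t * μ + τ⁻¹ * μ := by
    have := hinge_le_exp t ht0
    rw [hexp] at this
    exact (cell_bound A t ht0).trans (by linarith)
  have hκ : τ⁻¹ ≤ 2/5 := by
    rw [inv_le_comm₀ hτpos (by norm_num)]
    linarith
  have h2 : z ≤ μ * (t + 2/5) := by nlinarith
  have h3 : (t + 2/5)^2 ≤ 2.4 * L + 0.96 := by
    nlinarith [sq_nonneg (t - 2)]
  have hexpL : 1 + L + L^2/2 + L^3/6 + L^4/24 ≤ Real.exp L := by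
    have := Real.sum_le_exp_of_nonneg (by linarith : 0 ≤ L) 5
    simp [Finset.sum_range_succ, Nat.factorial] at this
    linarith
  have hμL : μ * Real.exp L = 1 := by
    rw [hL, Real.exp_neg, Real.exp_log hpos, mul_inv_cancel₀ hpos.ne']
  have hpi : π ≤ 3.1416 := Real.pi_lt_d4.le
  have hc : (0.358 : ℝ) ≤ (9/4) / (2 * π) := by
    rw [le_div_iff₀ (by positivity)]
    nlinarith
  have h4 : μ * (2.4 * L + 0.96) ≤ 0.358 := by
    have h5 : 2.4 * L + 0.96 ≤ 0.358 * (1 + L + L^2/2 + L^3/6 + L^4/24) := by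
      nlinarith [sq_nonneg (L - 5), mul_nonneg (sub_nonneg.2 hL5) (sq_nonneg L),
        mul_nonneg (sub_nonneg.2 hL5) (sub_nonneg.2 hL5), pow_nonneg (sub_nonneg.2 hL5) 3,
        pow_nonneg (sub_nonneg.2 hL5) 4]
    calc μ * (2.4 * L + 0.96) ≤ μ * (0.358 * Real.exp L) :=
          mul_le_mul_of_nonneg_left (h5.trans (by nlinarith)) hμ0
      _ = 0.358 * (μ * Real.exp L) := by ring
      _ = 0.358 := by rw [hμL]; ring
  calc z^2 ≤ (μ * (t + 2/5))^2 := pow_le_pow_left₀ hz0 h2 2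
    _ = μ * (μ * (t + 2/5)^2) := by ring
    _ ≤ μ * (μ * (2.4 * L + 0.96)) := by gcongr
    _ ≤ μ * 0.358 := by gcongr
    _ ≤ (9/4) / (2 * π) * μ := by nlinarith

lemma exp_neg_five_lower : (0.006 : ℝ) ≤ Real.exp (-5) := by
  have h1 : Real.exp 1 < 2.7182818286 := Real.exp_one_lt_d9
  have h2 : Real.exp 5 = (Real.exp 1)^5 := by
    rw [← Real.exp_nat_mul]; norm_num
  have h3 : Real.exp 5 ≤ 2.7182818286^5 := by
    rw [h2]; exact pow_le_pow_left₀ (Real.exp_pos 1).le h1.le 5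
  rw [Real.exp_neg, le_inv_comm₀ (by norm_num) (Real.exp_pos 5)]
  refine h3.trans ?_
  norm_num

/-- one cell, small measure: the conjectured constant -/
lemma cell_sq_le_small (A : Set E) (hμ : (stdGaussian E).real A ≤ 1/7) :
    ‖∫ x in A, x ∂(stdGaussian E)‖^2 ≤ 9 / (8 * π) * (stdGaussian E).real A := by
  have e : (9:ℝ) / (8 * π) = (9/4) / (2 * π) := by
    field_simp; ring
  rw [e]
  rcases le_total ((stdGaussian E).real A) 0.006 with h1 | h1
  · exact cell_sq_le_tail A (h1.trans exp_neg_five_lower)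
  rcases le_total ((stdGaussian E).real A) 0.027 with h2 | h2
  · apply cell_sq_le_of_poly A 1.45 (by norm_num) (9/4) (by linarith)
    norm_num
    nlinarith [mul_nonneg (sub_nonneg.2 h1) (sub_nonneg.2 h2)]
  · apply cell_sq_le_of_poly A 1.11 (by norm_num) (9/4) (by linarith)
    norm_num
    nlinarith [mul_nonneg (sub_nonneg.2 h2) (sub_nonneg.2 hμ)]

/-- one cell, any measure -/
lemma cell_sq_le (A : Set E) :
    ‖∫ x in A, x ∂(stdGaussian E)‖^2 ≤ 9 / (7 * π) * (stdGaussian E).real A := by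
  have hμ0 : 0 ≤ (stdGaussian E).real A := measureReal_nonneg
  have e : (9:ℝ) / (7 * π) = (18/7) / (2 * π) := by
    field_simp; ring
  rcases le_total ((stdGaussian E).real A) 0.092 with h1 | h1
  · refine (cell_sq_le_small A (by linarith)).trans ?_
    apply mul_le_mul_of_nonneg_right _ hμ0
    apply div_le_div_of_nonneg_left (by norm_num) (by positivity)
    nlinarith [Real.pi_pos]
  rw [e]
  rcases le_total ((stdGaussian E).real A) 0.246 with h2 | h2
  · apply cell_sq_le_of_poly A 0.8 (by norm_num) (18/7) (by linarith)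
    norm_num
    nlinarith [mul_nonneg (sub_nonneg.2 h1) (sub_nonneg.2 h2)]
  rcases le_total ((stdGaussian E).real A) 0.389 with h3 | h3
  · apply cell_sq_le_of_poly A 0.57 (by norm_num) (18/7) (by linarith)
    norm_num
    nlinarith [mul_nonneg (sub_nonneg.2 h2) (sub_nonneg.2 h3)]
  · have hb := cell_bound A 0 le_rfl
    have hp := hinge_le_exp 0 le_rfl
    have h4 : ‖∫ x in A, x ∂(stdGaussian E)‖ ≤ (√(2 * π))⁻¹ := by
      simp at hp hb
      simpa using hb.trans hp
    calc ‖∫ x in A, x ∂(stdGaussian E)‖^2 ≤ ((√(2 * π))⁻¹)^2 :=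
          pow_le_pow_left₀ (norm_nonneg _) h4 2
      _ = 1 / (2 * π) := inv_sqrt_sq
      _ ≤ (18/7) / (2 * π) * (stdGaussian E).real A := by
          rw [div_mul_eq_mul_div]
          apply div_le_div_of_nonneg_right _ (by positivity)
          linarith

lemma sum_measureReal_le_one {k : ℕ} (A : Fin k → Set E) (hA : ∀ i, MeasurableSet (A i))
    (hd : Pairwise (Function.onFun Disjoint A)) :
    ∑ i, (stdGaussian E).real (A i) ≤ 1 := by
  have h := measureReal_biUnion_finset (μ := stdGaussian E) (s := Finset.univ) (f := A)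
    (fun i _ j _ hij => hd hij) (fun i _ => hA i)
  rw [← h]
  exact measureReal_le_one

theorem propeller_universal {k : ℕ} (A : Fin k → Set E) (hA : ∀ i, MeasurableSet (A i))
    (hd : Pairwise (Function.onFun Disjoint A)) :
    ∑ i, ‖∫ x in A i, x ∂(stdGaussian E)‖^2 ≤ 9 / (7 * π) := by
  calc ∑ i, ‖∫ x in A i, x ∂(stdGaussian E)‖^2
      ≤ ∑ i, 9 / (7 * π) * (stdGaussian E).real (A i) :=
        Finset.sum_le_sum (fun i _ => cell_sq_le (A i))
    _ = 9 / (7 * π) * ∑ i, (stdGaussian E).real (A i) := by rw [Finset.mul_sum]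
    _ ≤ 9 / (7 * π) * 1 :=
        mul_le_mul_of_nonneg_left (sum_measureReal_le_one A hA hd) (by positivity)
    _ = 9 / (7 * π) := by ring

theorem propeller_small_cells {k : ℕ} (A : Fin k → Set E) (hA : ∀ i, MeasurableSet (A i))
    (hd : Pairwise (Function.onFun Disjoint A))
    (hs : ∀ i, (stdGaussian E).real (A i) ≤ 1/7) :
    ∑ i, ‖∫ x in A i, x ∂(stdGaussian E)‖^2 ≤ 9 / (8 * π) := by
  calc ∑ i, ‖∫ x in A i, x ∂(stdGaussian E)‖^2
      ≤ ∑ i, 9 / (8 * π) * (stdGaussian E).real (A i) :=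
        Finset.sum_le_sum (fun i _ => cell_sq_le_small (A i) (hs i))
    _ = 9 / (8 * π) * ∑ i, (stdGaussian E).real (A i) := by rw [Finset.mul_sum]
    _ ≤ 9 / (8 * π) * 1 :=
        mul_le_mul_of_nonneg_left (sum_measureReal_le_one A hA hd) (by positivity)
    _ = 9 / (8 * π) := by ring

/-- one cell, any measure: the half-space bound -/
lemma cell_sq_le_half (A : Set E) :
    ‖∫ x in A, x ∂(stdGaussian E)‖^2 ≤ 1 / (2 * π) := by
  have hb := cell_bound A 0 le_rfl
  have hp := hinge_le_exp 0 le_rfl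
  have h4 : ‖∫ x in A, x ∂(stdGaussian E)‖ ≤ (√(2 * π))⁻¹ := by
    simp at hp hb
    simpa using hb.trans hp
  calc ‖∫ x in A, x ∂(stdGaussian E)‖^2 ≤ ((√(2 * π))⁻¹)^2 :=
        pow_le_pow_left₀ (norm_nonneg _) h4 2
    _ = 1 / (2 * π) := inv_sqrt_sq

theorem propeller_large_cell {k : ℕ} (A : Fin k → Set E) (hA : ∀ i, MeasurableSet (A i))
    (hd : Pairwise (Function.onFun Disjoint A))
    (hl : ∃ i, 37/72 ≤ (stdGaussian E).real (A i)) :
    ∑ i, ‖∫ x in A i, x ∂(stdGaussian E)‖^2 ≤ 9 / (8 * π) := by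
  obtain ⟨i0, hi0⟩ := hl
  have hsum := sum_measureReal_le_one A hA hd
  rw [← Finset.add_sum_erase Finset.univ _ (Finset.mem_univ i0)] at hsum ⊢
  have h1 : ∑ i ∈ Finset.univ.erase i0, ‖∫ x in A i, x ∂(stdGaussian E)‖^2
      ≤ 9 / (7 * π) * ∑ i ∈ Finset.univ.erase i0, (stdGaussian E).real (A i) := by
    rw [Finset.mul_sum]
    exact Finset.sum_le_sum (fun i _ => cell_sq_le (A i))
  have h2 : ∑ i ∈ Finset.univ.erase i0, (stdGaussian E).real (A i) ≤ 35/72 := by linarith
  have h3 : 9 / (7 * π) * ∑ i ∈ Finset.univ.erase i0, (stdGaussian E).real (A i)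
      ≤ 9 / (7 * π) * (35/72) := mul_le_mul_of_nonneg_left h2 (by positivity)
  have h4 := cell_sq_le_half (A i0)
  have e : 1 / (2 * π) + 9 / (7 * π) * (35/72) = 9 / (8 * π) := by
    field_simp; ring
  linarith

end Vale.Agent.Lib.P226
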