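import Vale.Agent.Lib.P226.Basic

open MeasureTheory ProbabilityTheory Real Set
open scoped RealInnerProductSpace

namespace Vale.Agent.Lib.P226

section vectors

variable {E : Type*} [NormedAddCommGroup E] [InnerProductSpace ℝ E]

/-- greedy choice of signs -/
lemma exists_signs {ι : Type*} [DecidableEq ι] (U : Finset ι) (z : ι → E) :
    ∃ s : ι → Bool, ∑ i ∈ U, ‖z i‖ ^ 2 ≤ ‖∑ i ∈ U, (if s i then z i else - z i)‖ ^ 2 := by
  induction U using Finset.induction_on with
  | empty => exact ⟨fun _ => true, by simp⟩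
  | insert a U ha ih =>
    obtain ⟨s, hs⟩ := ih
    set S := ∑ i ∈ U, (if s i then z i else - z i) with hS
    by_cases h : 0 ≤ ⟪z a, S⟫
    · refine ⟨Function.update s a true, ?_⟩
      rw [Finset.sum_insert ha, Finset.sum_insert ha]
      have e : ∑ i ∈ U, (if Function.update s a true i then z i else - z i) = S := by
        apply Finset.sum_congr rfl
        intro i hi
        have : i ≠ a := fun h => ha (h ▸ hi)
        simp [Function.update_of_ne this]
      rw [e]
      simp only [Function.update_self, if_true]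
      rw [norm_add_sq_real]
      linarith
    · refine ⟨Function.update s a false, ?_⟩
      rw [Finset.sum_insert ha, Finset.sum_insert ha]
      have e : ∑ i ∈ U, (if Function.update s a false i then z i else - z i) = S := by
        apply Finset.sum_congr rfl
        intro i hi
        have : i ≠ a := fun h => ha (h ▸ hi)
        simp [Function.update_of_ne this]
      rw [e]
      simp only [Function.update_self]
      rw [if_neg (by simp), norm_add_sq_real, norm_neg, inner_neg_left]
      rw [not_le] at h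
      linarith

lemma sum_shift (f : Fin 3 → E) (t : Fin 3) : ∑ c, f (c + t) = ∑ c, f c :=
  Equiv.sum_comp (Equiv.addRight t) f

lemma sum_shift_real (f : Fin 3 → ℝ) (t : Fin 3) : ∑ c, f (c + t) = ∑ c, f c :=
  Equiv.sum_comp (Equiv.addRight t) f

/-- greedy choice of cyclic shifts -/
lemma exists_shifts {ι : Type*} [DecidableEq ι] (U : Finset ι) (z : ι → Fin 3 → E) :
    ∃ s : ι → Fin 3,
      ∑ j ∈ U, ∑ c, ‖z j c‖ ^ 2 + (‖∑ j ∈ U, ∑ c, z j c‖ ^ 2 - ∑ j ∈ U, ‖∑ c, z j c‖ ^ 2) / 3
        ≤ ∑ c, ‖∑ j ∈ U, z j (c + s j)‖ ^ 2 := by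
  induction U using Finset.induction_on with
  | empty => exact ⟨fun _ => 0, by simp⟩
  | insert a U ha ih =>
    obtain ⟨s, hs⟩ := ih
    set S : Fin 3 → E := fun c => ∑ j ∈ U, z j (c + s j) with hS
    set β : E := ∑ j ∈ U, ∑ c, z j c with hβ
    set b : E := ∑ c, z a c with hb
    have hSβ : ∑ c, S c = β := by
      rw [hS, hβ, Finset.sum_comm]
      apply Finset.sum_congr rfl
      intro j _
      exact sum_shift (z j) (s j)
    -- total of the cross terms
    have hcross : ∑ t : Fin 3, ∑ c, ⟪S c, z a (c + t)⟫ = ⟪β, b⟫ := by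
      rw [Finset.sum_comm, ← hSβ, sum_inner]
      apply Finset.sum_congr rfl
      intro c _
      rw [← inner_sum]
      congr 1
      have : ∑ t : Fin 3, z a (c + t) = ∑ t : Fin 3, z a (t + c) := by
        apply Finset.sum_congr rfl; intro t _; rw [add_comm]
      rw [this, sum_shift]
    obtain ⟨t, ht⟩ : ∃ t : Fin 3, ⟪β, b⟫ / 3 ≤ ∑ c, ⟪S c, z a (c + t)⟫ := by
      by_contra hcon
      simp only [not_exists, not_le] at hcon
      rw [Fin.sum_univ_three] at hcross
      have h0 := hcon 0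
      have h1 := hcon 1
      have h2 := hcon 2
      linarith
    refine ⟨Function.update s a t, ?_⟩
    have e : ∀ c, ∑ j ∈ insert a U, z j (c + Function.update s a t j) = z a (c + t) + S c := by
      intro c
      rw [Finset.sum_insert ha]
      simp only [Function.update_self]
      congr 1
      apply Finset.sum_congr rfl
      intro j hj
      have : j ≠ a := fun h => ha (h ▸ hj)
      rw [Function.update_of_ne this]
    simp_rw [e]
    rw [Finset.sum_insert ha, Finset.sum_insert ha, Finset.sum_insert ha]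
    have e2 : ∑ c, ‖z a (c + t) + S c‖ ^ 2
        = ∑ c, ‖z a c‖ ^ 2 + 2 * ∑ c, ⟪S c, z a (c + t)⟫ + ∑ c, ‖S c‖ ^ 2 := by
      rw [← sum_shift_real (fun c => ‖z a c‖ ^ 2) t, Finset.mul_sum, ← Finset.sum_add_distrib,
        ← Finset.sum_add_distrib]
      apply Finset.sum_congr rfl
      intro c _
      rw [norm_add_sq_real, real_inner_comm]
    rw [e2]
    have e3 : ‖b + β‖ ^ 2 = ‖b‖ ^ 2 + 2 * ⟪β, b⟫ + ‖β‖ ^ 2 := by
      rw [norm_add_sq_real, real_inner_comm]
    rw [e3]
    linarith

end vectors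

variable {E : Type*} [NormedAddCommGroup E] [InnerProductSpace ℝ E] [FiniteDimensional ℝ E]
  [MeasurableSpace E] [BorelSpace E]

lemma moment_neg (A : Set E) :
    ∫ x in {x | -x ∈ A}, x ∂(stdGaussian E) = - ∫ x in A, x ∂(stdGaussian E) := by
  have hmp : MeasurePreserving (fun x : E => -x) (stdGaussian E) (stdGaussian E) :=
    ⟨measurable_neg, by simpa using stdGaussian_map (LinearIsometryEquiv.neg ℝ (E := E))⟩
  have h := hmp.setIntegral_preimage_emb (MeasurableEquiv.neg E).measurableEmbedding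
    (fun y => y) A
  have e : {x : E | -x ∈ A} = (fun x : E => -x) ⁻¹' A := rfl
  rw [e, ← h, integral_neg, neg_neg]

theorem propeller_symmetric {k : ℕ} (A : Fin k → Set E) (hA : ∀ i, MeasurableSet (A i))
    (hd : Pairwise (Function.onFun Disjoint A))
    (σ : Fin k → Fin k) (hσ : Function.Involutive σ) (hσA : ∀ i, A (σ i) = {x | -x ∈ A i}) :
    ∑ i, ‖∫ x in A i, x ∂(stdGaussian E)‖^2 ≤ 1 / π := by
  set z : Fin k → E := fun i => ∫ x in A i, x ∂(stdGaussian E) with hz
  have hzσ : ∀ i, z (σ i) = - z i := by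
    intro i
    simp only [hz, hσA i, moment_neg]
  set U : Finset (Fin k) := Finset.univ.filter (fun i => i < σ i) with hU
  obtain ⟨s, hs⟩ := exists_signs U z
  set τ : Fin k → Fin k := fun i => if s i then i else σ i with hτ
  have hzτ : ∀ i, z (τ i) = if s i then z i else - z i := by
    intro i
    by_cases h : s i <;> simp [hτ, h, hzσ]
  have hinj : ∀ i ∈ U, ∀ j ∈ U, i ≠ j → τ i ≠ τ j := by
    intro i hi j hj hij
    simp only [hU, Finset.mem_filter, Finset.mem_univ, true_and] at hi hj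
    simp only [hτ]
    intro h
    by_cases h1 : s i = true <;> by_cases h2 : s j = true
    · rw [if_pos h1, if_pos h2] at h
      exact hij h
    · rw [if_pos h1, if_neg h2] at h
      rw [h, hσ j] at hi
      exact absurd hi (not_lt.2 hj.le)
    · rw [if_neg h1, if_pos h2] at h
      rw [← h, hσ i] at hj
      exact absurd hj (not_lt.2 hi.le)
    · rw [if_neg h1, if_neg h2] at h
      exact hij (hσ.injective h)
  -- the union
  have hint : ∀ i ∈ U, IntegrableOn (fun x : E => x) (A (τ i)) (stdGaussian E) :=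
    fun i _ => (IsGaussian.integrable_id (μ := stdGaussian E)).integrableOn
  have hunion : ∫ x in ⋃ i ∈ U, A (τ i), x ∂(stdGaussian E) = ∑ i ∈ U, z (τ i) := by
    rw [integral_biUnion_finset U (fun i _ => hA (τ i)) _ hint]
    intro i hi j hj hij
    exact hd (hinj i hi j hj hij)
  have hhalf := cell_sq_le_half (E := E) (⋃ i ∈ U, A (τ i))
  rw [hunion, Finset.sum_congr rfl (fun i _ => hzτ i)] at hhalf
  have h1 : ∑ i ∈ U, ‖z i‖ ^ 2 ≤ 1 / (2 * π) := hs.trans hhalf
  -- split the full sum
  have hsplit : ∑ i, ‖z i‖ ^ 2 = 2 * ∑ i ∈ U, ‖z i‖ ^ 2 := by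
    rw [← Finset.sum_filter_add_sum_filter_not Finset.univ (fun i => i < σ i)]
    rw [← Finset.sum_filter_add_sum_filter_not (Finset.univ.filter (fun i => ¬ i < σ i))
      (fun i => σ i < i)]
    have e1 : ∑ i ∈ (Finset.univ.filter (fun i => ¬ i < σ i)).filter (fun i => σ i < i), ‖z i‖ ^ 2
        = ∑ i ∈ U, ‖z i‖ ^ 2 := by
      apply Finset.sum_nbij' σ σ
      · intro i hi
        simp only [Finset.mem_filter, Finset.mem_univ, true_and] at hi
        simp only [hU, Finset.mem_filter, Finset.mem_univ, true_and, hσ i]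
        exact hi.2
      · intro i hi
        simp only [hU, Finset.mem_filter, Finset.mem_univ, true_and] at hi
        simp only [Finset.mem_filter, Finset.mem_univ, true_and, hσ i]
        exact ⟨not_lt.2 hi.le, hi⟩
      · intro i _; exact hσ i
      · intro i _; exact hσ i
      · intro i _; rw [hzσ, norm_neg]
    have e2 : ∑ i ∈ (Finset.univ.filter (fun i => ¬ i < σ i)).filter (fun i => ¬ σ i < i), ‖z i‖ ^ 2
        = 0 := by
      apply Finset.sum_eq_zero
      intro i hi
      simp only [Finset.mem_filter, Finset.mem_univ, true_and] at hi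
      have hfix : σ i = i := le_antisymm (not_lt.1 hi.1) (not_lt.1 hi.2)
      have := hzσ i
      rw [hfix] at this
      have h0 : z i = 0 := by
        have h2 : (2 : ℝ) • z i = 0 := by
          rw [two_smul]; nth_rewrite 1 [this]; simp
        simpa using h2
      rw [h0]; simp
    rw [e1, e2]
    ring
  rw [hsplit]
  have : 2 * (1 / (2 * π)) = 1 / π := by field_simp
  linarith

lemma integrable_inner (v : E) : Integrable (fun x : E => ⟪v, x⟫) (stdGaussian E) :=
  (IsGaussian.integrable_id (μ := stdGaussian E)).const_inner v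

/-- `E |<v, g>| ≤ 2 κ |v|` -/
lemma integral_abs_inner_le (v : E) :
    ∫ x, |⟪v, x⟫| ∂(stdGaussian E) ≤ 2 * (√(2 * π))⁻¹ * ‖v‖ := by
  by_cases hv : v = 0
  · simp [hv]
  have hvn : 0 < ‖v‖ := norm_pos_iff.2 hv
  set u : E := (‖v‖)⁻¹ • v with hu
  have hun : ‖u‖ = 1 := by
    rw [hu, norm_smul, norm_inv, norm_norm, inv_mul_cancel₀ hvn.ne']
  have hvu : v = ‖v‖ • u := by
    rw [hu, smul_smul, mul_inv_cancel₀ hvn.ne', one_smul]
  have h1 : ∀ x : E, |⟪v, x⟫| = ‖v‖ * |⟪u, x⟫| := by
    intro x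
    conv_lhs => rw [hvu]
    rw [real_inner_smul_left, abs_mul, abs_of_pos hvn]
  simp_rw [h1]
  rw [integral_const_mul]
  have h2 : ∫ x, |⟪u, x⟫| ∂(stdGaussian E) = ∫ s, |s| ∂(gaussianReal 0 1) := by
    rw [← map_inner_stdGaussian u hun, integral_map]
    · exact Measurable.aemeasurable (by fun_prop)
    · exact Measurable.aestronglyMeasurable (by fun_prop)
  have hid : Integrable (fun s : ℝ => s) (gaussianReal 0 1) := IsGaussian.integrable_id
  have h3 : ∫ s, |s| ∂(gaussianReal 0 1) = 2 * ∫ s, max (s - 0) 0 ∂(gaussianReal 0 1) := by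
    have e : ∀ s : ℝ, |s| = 2 * max (s - 0) 0 - s := by
      intro s
      rcases le_total 0 s with h | h
      · rw [abs_of_nonneg h, sub_zero, max_eq_left h]; ring
      · rw [abs_of_nonpos h, sub_zero, max_eq_right h]; ring
    simp_rw [e]
    rw [integral_sub, integral_const_mul, integral_id_gaussianReal]
    · ring
    · apply Integrable.const_mul
      simpa using hid.pos_part
    · exact hid
  have h4 := hinge_le_exp 0 le_rfl
  simp only [ne_eq, OfNat.ofNat_ne_zero, not_false_eq_true, zero_pow, mul_zero, Real.exp_zero,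
    mul_one] at h4
  rw [h2, h3]
  nlinarith

lemma max3_identity (a b c : ℝ) :
    max (max a b) c + max (max (-a) (-b)) (-c) = (|a - b| + |b - c| + |a - c|) / 2 := by
  rcases le_total a b with h1 | h1 <;> rcases le_total b c with h2 | h2 <;>
    rcases le_total a c with h3 | h3 <;>
    simp only [max_eq_left, max_eq_right, abs_of_nonneg, abs_of_nonpos, sub_nonneg, sub_nonpos,
      neg_le_neg_iff, h1, h2, h3] <;> ring

/-- The three-cell case (Khot-Naor), for honest partitions. -/
theorem propeller_three (A : Fin 3 → Set E) (hA : ∀ i, MeasurableSet (A i))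
    (hd : Pairwise (Function.onFun Disjoint A)) (hcov : ⋃ i, A i = univ) :
    ∑ i, ‖∫ x in A i, x ∂(stdGaussian E)‖^2 ≤ 9 / (8 * π) := by
  set γ := stdGaussian E with hγ
  set z : Fin 3 → E := fun i => ∫ x in A i, x ∂γ with hz
  set F := ∑ i, ‖z i‖ ^ 2 with hF
  set h : E → ℝ := fun x => max (max ⟪z 0, x⟫ ⟪z 1, x⟫) ⟪z 2, x⟫ with hh
  have hid : Integrable (fun x : E => x) γ := IsGaussian.integrable_id
  have hhint : Integrable h γ :=
    ((integrable_inner (z 0)).sup (integrable_inner (z 1))).sup (integrable_inner (z 2))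
  -- F ≤ E h
  have h1 : F ≤ ∫ x, h x ∂γ := by
    have e1 : ∫ x, h x ∂γ = ∑ i, ∫ x in A i, h x ∂γ := by
      rw [← integral_iUnion_fintype hA hd (fun i => hhint.integrableOn), hcov, Measure.restrict_univ]
    rw [e1, hF]
    apply Finset.sum_le_sum
    intro i _
    have e2 : ‖z i‖ ^ 2 = ∫ x in A i, ⟪z i, x⟫ ∂γ := by
      rw [integral_inner hid.integrableOn (z i), real_inner_self_eq_norm_sq]
    rw [e2]
    apply integral_mono (integrable_inner (z i)).integrableOn hhint.integrableOn
    intro x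
    fin_cases i
    · exact le_max_of_le_left (le_max_left _ _)
    · exact le_max_of_le_left (le_max_right _ _)
    · exact le_max_right _ _
  -- symmetrisation
  have hmp : MeasurePreserving (fun x : E => -x) γ γ :=
    ⟨measurable_neg, by simpa using stdGaussian_map (LinearIsometryEquiv.neg ℝ (E := E))⟩
  have h2 : ∫ x, h (-x) ∂γ = ∫ x, h x ∂γ :=
    hmp.integral_comp (MeasurableEquiv.neg E).measurableEmbedding h
  have hhint' : Integrable (fun x => h (-x)) γ :=
    (hmp.integrable_comp_emb (MeasurableEquiv.neg E).measurableEmbedding).2 hhint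
  have h3 : 2 * ∫ x, h x ∂γ = ∫ x, (|⟪z 0 - z 1, x⟫| + |⟪z 1 - z 2, x⟫| + |⟪z 0 - z 2, x⟫|) / 2 ∂γ := by
    have : 2 * ∫ x, h x ∂γ = ∫ x, (h x + h (-x)) ∂γ := by
      rw [integral_add hhint hhint', h2]; ring
    rw [this]
    apply integral_congr_ae
    filter_upwards with x
    simp only [hh, inner_neg_right, inner_sub_left]
    exact max3_identity _ _ _
  have hai : ∀ v : E, Integrable (fun x : E => |⟪v, x⟫|) γ := fun v => (integrable_inner v).abs
  have h4 : ∫ x, (|⟪z 0 - z 1, x⟫| + |⟪z 1 - z 2, x⟫| + |⟪z 0 - z 2, x⟫|) / 2 ∂γ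
      ≤ (√(2 * π))⁻¹ * (‖z 0 - z 1‖ + ‖z 1 - z 2‖ + ‖z 0 - z 2‖) := by
    have i12 : Integrable (fun x => |⟪z 0 - z 1, x⟫| + |⟪z 1 - z 2, x⟫|) γ := (hai _).add (hai _)
    rw [integral_div, integral_add i12 (hai _), integral_add (hai _) (hai _)]
    have a1 := integral_abs_inner_le (z 0 - z 1)
    have a2 := integral_abs_inner_le (z 1 - z 2)
    have a3 := integral_abs_inner_le (z 0 - z 2)
    linarith
  -- Cauchy-Schwarz
  have h5 : (‖z 0 - z 1‖ + ‖z 1 - z 2‖ + ‖z 0 - z 2‖) ^ 2 ≤ 9 * F := by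
    have b1 : ‖z 0 - z 1‖ ^ 2 + ‖z 1 - z 2‖ ^ 2 + ‖z 0 - z 2‖ ^ 2 + ‖z 0 + z 1 + z 2‖ ^ 2 = 3 * F := by
      rw [hF, Fin.sum_univ_three]
      simp only [← real_inner_self_eq_norm_sq, inner_sub_left, inner_sub_right, inner_add_left,
        inner_add_right, real_inner_comm]
      ring
    have b2 : 0 ≤ ‖z 0 + z 1 + z 2‖ ^ 2 := by positivity
    nlinarith [sq_nonneg (‖z 0 - z 1‖ - ‖z 1 - z 2‖), sq_nonneg (‖z 1 - z 2‖ - ‖z 0 - z 2‖),
      sq_nonneg (‖z 0 - z 1‖ - ‖z 0 - z 2‖)]
  have hF0 : 0 ≤ F := by rw [hF]; positivity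
  set κ := (√(2 * π))⁻¹ with hκ
  have hκ0 : 0 < κ := by rw [hκ]; positivity
  set L := ‖z 0 - z 1‖ + ‖z 1 - z 2‖ + ‖z 0 - z 2‖ with hL
  have hL0 : 0 ≤ L := by rw [hL]; positivity
  have h6 : 2 * F ≤ κ * L := by linarith
  have h7 : (2 * F) ^ 2 ≤ κ ^ 2 * (9 * F) := by
    calc (2 * F) ^ 2 ≤ (κ * L) ^ 2 := pow_le_pow_left₀ (by positivity) h6 2
      _ = κ ^ 2 * L ^ 2 := by ring
      _ ≤ κ ^ 2 * (9 * F) := mul_le_mul_of_nonneg_left h5 (by positivity)
  have hκ2 : κ ^ 2 = 1 / (2 * π) := inv_sqrt_sq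
  have h8 : F ≤ 9 / 4 * κ ^ 2 := by
    rcases hF0.eq_or_lt with h0 | hpos
    · rw [← h0]; positivity
    · have : 4 * F * F ≤ 9 * κ ^ 2 * F := by nlinarith
      have := le_of_mul_le_mul_right this hpos
      linarith
  rw [hκ2] at h8
  have : 9 / 4 * (1 / (2 * π)) = 9 / (8 * π) := by field_simp; ring
  linarith

/-- Coarsening inequality: cells `A j c` (`j < m`, `c < 3`), blocks `B j = ⋃_c A j c`. -/
theorem propeller_blocks {m : ℕ} (A : Fin m → Fin 3 → Set E) (hA : ∀ j c, MeasurableSet (A j c))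
    (hd : ∀ j c j' c', (j, c) ≠ (j', c') → Disjoint (A j c) (A j' c'))
    (hcov : ⋃ j, ⋃ c, A j c = univ) :
    ∑ j, ∑ c, ‖∫ x in A j c, x ∂(stdGaussian E)‖^2
      ≤ 9 / (8 * π) + (∑ j, ‖∫ x in ⋃ c, A j c, x ∂(stdGaussian E)‖^2) / 3 := by
  set γ := stdGaussian E with hγ
  set z : Fin m → Fin 3 → E := fun j c => ∫ x in A j c, x ∂γ with hz
  have hio : ∀ S : Set E, IntegrableOn (fun x : E => x) S γ :=
    fun S => (IsGaussian.integrable_id (μ := γ)).integrableOn
  have hb : ∀ j, ∫ x in ⋃ c, A j c, x ∂γ = ∑ c, z j c := by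
    intro j
    rw [integral_iUnion_fintype (hA j) _ (fun c => hio _)]
    intro c c' hcc
    exact hd j c j c' (fun h => hcc (Prod.ext_iff.1 h).2)
  obtain ⟨s, hs⟩ := exists_shifts Finset.univ z
  set H : Fin 3 → Set E := fun c => ⋃ j, A j (c + s j) with hH
  have hHm : ∀ c, MeasurableSet (H c) := fun c => MeasurableSet.iUnion (fun j => hA j _)
  have hHd : Pairwise (Function.onFun Disjoint H) := by
    intro c c' hcc
    simp only [Function.onFun, hH, Set.disjoint_iUnion_left, Set.disjoint_iUnion_right]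
    intro j j'
    apply hd
    intro h
    have h1 := (Prod.ext_iff.1 h).1
    have h2 := (Prod.ext_iff.1 h).2
    simp only at h1 h2
    subst h1
    exact hcc (add_right_cancel h2)
  have hHc : ⋃ c, H c = univ := by
    rw [Set.eq_univ_iff_forall]
    intro x
    have hx : x ∈ ⋃ j, ⋃ c, A j c := by rw [hcov]; trivial
    simp only [Set.mem_iUnion] at hx
    obtain ⟨j, c, hx⟩ := hx
    simp only [hH, Set.mem_iUnion]
    exact ⟨c - s j, j, by simpa using hx⟩
  have hHz : ∀ c, ∫ x in H c, x ∂γ = ∑ j, z j (c + s j) := by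
    intro c
    rw [hH, integral_iUnion_fintype (fun j => hA j _) _ (fun j => hio _)]
    intro j j' hjj
    exact hd _ _ _ _ (fun h => hjj (Prod.ext_iff.1 h).1)
  have h3 := propeller_three H hHm hHd hHc
  simp_rw [← hγ, hHz] at h3
  -- total moment vanishes
  have htot : ∑ j, ∑ c, z j c = 0 := by
    have e1 : ∑ j, ∑ c, z j c = ∫ x in ⋃ j, ⋃ c, A j c, x ∂γ := by
      rw [integral_iUnion_fintype (fun j => MeasurableSet.iUnion (hA j)) _ (fun j => hio _)]
      · exact Finset.sum_congr rfl (fun j _ => (hb j).symm)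
      · intro j j' hjj
        simp only [Function.onFun, Set.disjoint_iUnion_left, Set.disjoint_iUnion_right]
        intro c c'
        exact hd _ _ _ _ (fun h => hjj (Prod.ext_iff.1 h).1)
    rw [e1, hcov, Measure.restrict_univ, hγ, integral_id_stdGaussian]
  rw [htot] at hs
  simp_rw [hb]
  simp only [norm_zero, ne_eq, OfNat.ofNat_ne_zero, not_false_eq_true, zero_pow, zero_sub] at hs
  linarith

end Vale.Agent.Lib.P226
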